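import Vale.Agent.P315R45.Expr

/-! The compiler from structured programs to the word RAM, and its correctness. -/

set_option autoImplicit false

namespace Vale.Agent.P315R45

open Vale.Agent.P315

/-- The length of the code of a program. -/
def lenP : Prog → ℕ
  | .set _ e => lenE e + 1
  | .put _ e e' => lenE e + lenE e' + 4
  | .rand _ => 3
  | .seq p q => lenP p + lenP q
  | .ite e p q => lenE e + 1 + lenP p + 1 + lenP q
  | .loop _ e p => lenE e + 5 + lenP p + 3

/-- The code of a program at loop depth `l`, placed at line `o`. -/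
def compP (c sh : ℕ) : Prog → ℕ → ℕ → List Instr
  | .set i e, _, _ => compE sh e 0 ++ [.op .or (4 * i) 1 1]
  | .put j e e', _, _ => compE sh e 0 ++ (compE sh e' 1 ++ (addr 1 9 (j + sh) ++ [.store 1 5]))
  | .rand i, _, _ => [.rand (4 * i), .const 1 (2 ^ c), .op .div (4 * i) (4 * i) 1]
  | .seq p q, l, o => compP c sh p l o ++ compP c sh q l (o + lenP p)
  | .ite e p q, l, o => compE sh e 0 ++ (.jz 1 (o + lenE e + 1 + lenP p + 1) ::
      (compP c sh p l (o + lenE e + 1) ++ (.jump (o + lenE e + 1 + lenP p + 1 + lenP q) ::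
        compP c sh q l (o + lenE e + 1 + lenP p + 1))))
  | .loop i e p, l, o => compE sh e 0 ++ (.op .or (4 * l + 3) 1 1 :: .const (4 * l + 2) 0 ::
      .op .lt 1 (4 * l + 2) (4 * l + 3) :: .jz 1 (o + lenE e + 5 + lenP p + 3) ::
      .op .or (4 * i) (4 * l + 2) (4 * l + 2) :: (compP c sh p (l + 1) (o + lenE e + 5) ++
        [.const 1 1, .op .add (4 * l + 2) (4 * l + 2) 1, .jump (o + lenE e + 2)]))

theorem compP_len (c sh : ℕ) (p : Prog) (l o : ℕ) : (compP c sh p l o).length = lenP p := by
  induction p generalizing l o with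
  | set i e => simp [compP, lenP, compE_len]
  | put j e e' => simp [compP, lenP, compE_len, addr]; omega
  | rand i => rfl
  | seq p q ih ih' => simp [compP, lenP, ih, ih']
  | ite e p q ih ih' => simp [compP, lenP, ih, ih', compE_len]; omega
  | loop i e p ih => simp [compP, lenP, ih, compE_len]; omega

/-- A bound for the arrays of a program. -/
def mxP : Prog → ℕ
  | .set _ e => mxE e
  | .put j e e' => max (j + 1) (max (mxE e) (mxE e'))
  | .rand _ => 0
  | .seq p q => max (mxP p) (mxP q)
  | .ite e p q => max (mxE e) (max (mxP p) (mxP q))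
  | .loop _ e p => max (mxE e) (mxP p)

/-- The loop registers below depth `l` have not changed. -/
def Keep {w : ℕ} (l : ℕ) (g g' : Cfg w) : Prop :=
  ∀ r, 2 ≤ r % 4 → r < 4 * l → g'.reg r = g.reg r

theorem Keep.trans {w l l' : ℕ} {g g' g'' : Cfg w} (h : Keep l g g') (h' : Keep l' g' g'')
    (hl : l ≤ l') : Keep l g g'' := fun r h1 h2 => (h' r h1 (by omega)).trans (h r h1 h2)

theorem Keep.set {w l : ℕ} {g g' : Cfg w} (h : Keep l g g') {r : ℕ} (v : BitVec w)
    (hr : r % 4 < 2 ∨ 4 * l ≤ r) : Keep l g (g'.set r v) := fun r' h1 h2 =>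
  (set_ne g' v (by omega)).trans (h r' h1 h2)

theorem Fr.keep {w d : ℕ} {g g' : Cfg w} (h : Fr d g g') (l : ℕ) : Keep l g g' :=
  fun r _ _ => h.reg r (by omega)

section Sim

variable {b c sh : ℕ} {s : State} {g : Cfg (b + c)}

theorem Sim.setReg (h : Sim b c sh s g) (i : ℕ) {v : BitVec (b + c)} {n : ℕ} (hv : v.toNat = n) :
    Sim b c sh (s.setReg i n) (g.set (4 * i) v) := by
  refine ⟨fun i' => ?_, h.arr, h.coins, by rw [set_ne _ _ (by omega), h.base]⟩
  by_cases e : i' = i
  · subst e; simp [set_same, State.setReg, hv]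
  · rw [set_ne _ _ (by omega), h.reg]; simp [State.setReg, Function.update_of_ne e]

theorem Sim.other (h : Sim b c sh s g) {r : ℕ} (v : BitVec (b + c)) (h1 : r % 4 ≠ 0)
    (h2 : r ≠ 3) : Sim b c sh s (g.set r v) :=
  ⟨fun i => by rw [set_ne _ _ (by omega), h.reg], h.arr, h.coins,
    by rw [set_ne _ _ h2.symm, h.base]⟩

theorem Sim.pc (h : Sim b c sh s g) (l : ℕ) : Sim b c sh s { g with pc := l } :=
  ⟨h.reg, h.arr, h.coins, h.base⟩

theorem addr_inj {j a j' a' : ℕ} (hj : j < 2 ^ c) (ha : a < 2 ^ b) (hj' : j' < 2 ^ c)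
    (ha' : a' < 2 ^ b) (h : BitVec.ofNat (b + c) (j * 2 ^ b + a) =
      BitVec.ofNat (b + c) (j' * 2 ^ b + a')) : j = j' ∧ a = a' := by
  have h1 := congrArg BitVec.toNat h
  rw [BitVec.toNat_ofNat, BitVec.toNat_ofNat, Nat.mod_eq_of_lt (addr_lt hj ha),
    Nat.mod_eq_of_lt (addr_lt hj' ha')] at h1
  have h2 := congrArg (· % 2 ^ b) h1
  simp only [Nat.mul_add_mod_of_lt ha, Nat.mul_add_mod_of_lt ha'] at h2
  subst h2
  exact ⟨Nat.eq_of_mul_eq_mul_right (Nat.two_pow_pos b) (by omega), rfl⟩

theorem Sim.store (h : Sim b c sh s g) {j a n : ℕ} (hj : j + sh < 2 ^ c) (ha : a < 2 ^ b)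
    {v : BitVec (b + c)} (hv : v.toNat = n) (l : ℕ) :
    Sim b c sh (s.setArr j a n)
      { g with pc := l, mem := Function.update g.mem (.ofNat _ ((j + sh) * 2 ^ b + a)) v } := by
  refine ⟨h.reg, fun j' a' hj' ha' => ?_, h.coins, h.base⟩
  by_cases e : j' = j ∧ a' = a
  · obtain ⟨rfl, rfl⟩ := e
    simp [State.setArr, hv]
  · have e' : BitVec.ofNat (b + c) ((j' + sh) * 2 ^ b + a') ≠
        BitVec.ofNat (b + c) ((j + sh) * 2 ^ b + a) := fun hh => by
      have := addr_inj hj' ha' hj ha hh
      exact e ⟨by omega, this.2⟩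
    show (Function.update g.mem _ v _).toNat = _
    rw [Function.update_of_ne e', h.arr j' a' hj' ha']
    simp only [State.setArr]
    by_cases ej : j' = j
    · subst ej
      rw [Function.update_self, Function.update_of_ne (fun hh => e ⟨rfl, hh⟩)]
    · rw [Function.update_of_ne ej]

end Sim

/-- The code of a program simulates it with a slowdown by a factor of four. -/
theorem execP {b c sh : ℕ} (hb : 1 ≤ b) (hc : 1 ≤ c) {P : List Instr} {ρ : ℕ → BitVec (b + c)}
    {p : Prog} {s s' : State} {t : ℕ}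
    (h : Exec (2 ^ b) (fun i => (ρ i).toNat / 2 ^ c) p s t s') :
    ∀ (l : ℕ) (g : Cfg (b + c)), 1 ≤ l → mxP p + sh ≤ 2 ^ c → At P g.pc (compP c sh p l g.pc) →
      Sim b c sh s g → ∃ g', Run P ρ g g' (4 * t) ∧ g'.pc = g.pc + lenP p ∧
        Sim b c sh s' g' ∧ Keep l g g' := by
  induction h with
  | set i e s v t he =>
    intro l g _ hm hA hS
    obtain ⟨g1, r1, p1, v1, f1⟩ := evalE (ρ := ρ) hc he 0 g hm hA.left hS
    have hA1 := hA.right (n := g1.pc) (by rw [p1, compE_len])
    refine ⟨_, (r1.trans (Run.one hA1.head)).mono (by omega), ?_, (hS.fr f1).setReg i ?_,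
      (f1.keep l).set _ (by omega)⟩
    · simp only [Instr.exec, set_pc, p1, lenP]; omega
    · simpa [WOp.eval] using v1
  | put j e e' s a v t t' he he' =>
    intro l g _ hm hA hS
    simp only [mxP] at hm
    obtain ⟨g1, r1, p1, v1, f1⟩ := evalE (ρ := ρ) hc he 0 g (by omega) hA.left hS
    have hA1 := hA.right (n := g1.pc) (by rw [p1, compE_len])
    obtain ⟨g2, r2, p2, v2, f2⟩ := evalE (ρ := ρ) hc he' 1 g1 (by omega) hA1.left (hS.fr f1)
    have hA2 := hA1.right (n := g2.pc) (by rw [p2, compE_len])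
    have hS2 := (hS.fr f1).fr f2
    have r3 := Run.lin (ρ := ρ) (L := addr 1 9 (j + sh)) rfl hA2.left
    obtain ⟨u, u', e3⟩ := addr_spec (j := j + sh) (r := 1) (r' := 9) (a := a) ρ g2 hS2.base
      (by rw [f2.reg _ (by omega)]; exact v1) (by omega) (by omega)
    rw [e3] at r3
    have hA3 := hA2.right (n := g2.pc + 1 + 1 + 1) rfl
    have hS3 := ((hS2.other u (r := 9) (by omega) (by omega)).other u' (r := 9) (by omega)
      (by omega)).other (BitVec.ofNat _ ((j + sh) * 2 ^ b + a)) (r := 1) (by omega) (by omega)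
    refine ⟨_, (((r1.trans r2).trans r3).trans (Run.one hA3.head)).mono (by simp [addr]; omega),
      ?_, ?_, ?_⟩
    · simp only [Instr.exec, set_pc, p1, p2, lenP]; omega
    · simp only [Instr.exec, set_same]
      refine hS3.store (by omega) (eval_lt he) ?_ _
      rw [set_ne _ _ (by omega), set_ne _ _ (by omega), set_ne _ _ (by omega)]
      exact v2
    · exact ((((f1.keep l).trans (f2.keep l) le_rfl).set _ (by omega)).set _ (by omega)).set _
        (by omega)
  | rand i s h =>
    intro l g _ _ hA hS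
    have r1 := Run.lin (ρ := ρ) (L := compP c sh (.rand i) l g.pc) rfl hA
    refine ⟨_, r1.mono (by simp [compP]), rfl, ?_, ?_⟩
    · have n1 : 4 * i ≠ 1 := by omega
      have hlt : 2 ^ c < 2 ^ (b + c) := Nat.pow_lt_pow_right (by omega) (by omega)
      refine ⟨fun i' => ?_, hS.arr, congrArg (· + 1) hS.coins, ?_⟩
      · by_cases e : i' = i
        · subst e
          simp only [compP, execL, Instr.exec, Cfg.set, WOp.eval, State.setReg, hS.coins,
            Function.update_self, Function.update_of_ne n1, BitVec.toNat_udiv, BitVec.toNat_ofNat,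
            Nat.mod_eq_of_lt hlt]
        · have n2 : 4 * i' ≠ 4 * i := by omega
          have n3 : 4 * i' ≠ 1 := by omega
          simp [compP, execL, Instr.exec, Cfg.set, State.setReg, n2, n3, e, hS.reg]
      · have n2 : 3 ≠ 4 * i := by omega
        simp [compP, execL, Instr.exec, Cfg.set, n2, hS.base]
    · intro r h1 h2
      have n2 : r ≠ 4 * i := by omega
      have n3 : r ≠ 1 := by omega
      simp [compP, execL, Instr.exec, Cfg.set, n2, n3]
  | seq p q s s1 s2 t t' h h' ih ih' =>
    intro l g hl hm hA hS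
    simp only [mxP] at hm
    obtain ⟨g1, r1, p1, S1, k1⟩ := ih l g hl (by omega) hA.left hS
    have hA1 := hA.right (n := g1.pc) (by rw [p1, compP_len])
    rw [← p1] at hA1
    obtain ⟨g2, r2, p2, S2, k2⟩ := ih' l g1 hl (by omega) hA1 S1
    exact ⟨g2, (r1.trans r2).mono (by omega), by rw [p2, p1, lenP]; omega, S2,
      k1.trans k2 le_rfl⟩
  | iteTrue e p q s s1 v t t' he hv h ih =>
    intro l g hl hm hA hS
    simp only [mxP] at hm
    obtain ⟨g1, r1, p1, v1, f1⟩ := evalE (ρ := ρ) hc he 0 g (by omega) hA.left hS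
    have hA1 := hA.right (n := g1.pc) (by rw [p1, compE_len])
    have r2 := Run.one (ρ := ρ) hA1.head
    have n0 : g1.reg 1 ≠ 0 := fun hh => hv (by rw [← v1]; exact congrArg BitVec.toNat hh)
    simp only [Instr.exec, if_neg n0] at r2
    have hA2 := hA1.tail
    rw [← p1] at hA2
    obtain ⟨g3, r3, p3, S3, k3⟩ := ih l { g1 with pc := g1.pc + 1 } hl (by omega) hA2.left
      ((hS.fr f1).pc _)
    have hA3 := hA2.right (n := g3.pc) (by rw [p3, compP_len])
    refine ⟨_, (((r1.trans r2).trans r3).trans (Run.one hA3.head)).mono (by omega), ?_, S3.pc _,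
      (f1.keep l).trans k3 le_rfl⟩
    simp only [Instr.exec, lenP, p1]; omega
  | iteFalse e p q s s1 t t' he h ih =>
    intro l g hl hm hA hS
    simp only [mxP] at hm
    obtain ⟨g1, r1, p1, v1, f1⟩ := evalE (ρ := ρ) hc he 0 g (by omega) hA.left hS
    have hA1 := hA.right (n := g1.pc) (by rw [p1, compE_len])
    have r2 := Run.one (ρ := ρ) hA1.head
    have n0 : g1.reg 1 = 0 := BitVec.eq_of_toNat_eq v1
    simp only [Instr.exec, if_pos n0] at r2
    have hA2 := (hA1.tail.right (n := g.pc + lenE e + 1 + lenP p)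
      (by rw [p1, compP_len])).tail
    obtain ⟨g3, r3, p3, S3, k3⟩ := ih l { g1 with pc := g.pc + lenE e + 1 + lenP p + 1 } hl
      (by omega) hA2 ((hS.fr f1).pc _)
    refine ⟨g3, ((r1.trans r2).trans r3).mono (by omega), ?_, S3, (f1.keep l).trans k3 le_rfl⟩
    simp only [p3, lenP]; omega
  | loop i e p n t σ τ he h ih =>
    intro l g hl hm hA hS
    simp only [mxP] at hm
    obtain ⟨g1, r1, p1, v1, f1⟩ := evalE (ρ := ρ) hc he 0 g (by omega) hA.left hS
    have hA1 := hA.right (n := g.pc + lenE e) (by rw [compE_len])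
    have hn : n < 2 ^ (b + c) := (eval_lt he).trans_le two_le
    have h1 : 1 < 2 ^ (b + c) := Nat.one_lt_two_pow (by omega)
    have n23 : 4 * l + 3 ≠ 4 * l + 2 := by omega
    have n21 : 4 * l + 2 ≠ 1 := by omega
    have n31 : 4 * l + 3 ≠ 1 := by omega
    have hA2 := hA1.tail.tail
    have hA3 := hA2.tail
    have hA4 := hA3.tail
    have hA5 := hA4.tail
    have hA6 := hA5.right (n := g.pc + lenE e + 5 + lenP p) (by rw [compP_len])
    have key : ∀ k ≤ n, ∃ gk, Run P ρ g gk (4 * t + 2 + ∑ m ∈ Finset.range k, (4 * τ m + 6)) ∧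
        gk.pc = g.pc + lenE e + 1 + 1 ∧ Sim b c sh (σ k) gk ∧ (gk.reg (4 * l + 2)).toNat = k ∧
        (gk.reg (4 * l + 3)).toNat = n ∧ Keep l g gk := by
      intro k
      induction k with
      | zero =>
        intro _
        have r2 := Run.one (ρ := ρ) (g := g1) (p1 ▸ hA1.head)
        have r3 := Run.one (ρ := ρ) (g := Instr.exec ρ (.op .or (4 * l + 3) 1 1) g1)
          (I := .const (4 * l + 2) 0) (by simpa only [Instr.exec, set_pc, p1] using hA1.tail.head)
        refine ⟨_, ((r1.trans r2).trans r3).mono (by simp), ?_, ?_, ?_, ?_, ?_⟩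
        · simp only [Instr.exec, set_pc, p1]
        · exact ((hS.fr f1).other _ (by omega) (by omega)).other _ (by omega) (by omega)
        · simp [Instr.exec, set_same]
        · simpa [Instr.exec, set_same, set_ne _ _ n23, WOp.eval] using v1
        · exact ((f1.keep l).set _ (by omega)).set _ (by omega)
      | succ k ihk =>
        intro hk
        obtain ⟨gk, rk, pk, Sk, ck, bk, kk⟩ := ihk (by omega)
        have r2 := Run.one (ρ := ρ) (g := gk) (pk ▸ hA2.head)
        simp only [Instr.exec, WOp.eval, ck, bk, if_pos (show k < n from hk)] at r2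
        have r3 := Run.one (ρ := ρ) (g := gk.set 1 1) (by rw [set_pc, pk]; exact hA3.head)
        have n0 : (1 : BitVec (b + c)) ≠ 0 := fun hh => by
          have := congrArg BitVec.toNat hh
          simp [Nat.mod_eq_of_lt h1] at this
        simp only [Instr.exec, set_same, if_neg n0] at r3
        have r4 := Run.one (ρ := ρ) (g := { gk.set 1 1 with pc := (gk.set 1 1).pc + 1 })
          (by simp only [set_pc, pk]; exact hA4.head)
        simp only [Instr.exec, WOp.eval, BitVec.or_self, set_ne _ _ n21] at r4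
        have S4 := ((Sk.other (r := 1) 1 (by omega) (by omega)).pc
          ((gk.set 1 1).pc + 1)).setReg i ck
        obtain ⟨g5, r5, p5, S5, k5⟩ := ih k hk (l + 1) _ (by omega) (by omega)
          (by simp only [set_pc, pk]; exact hA5.left) S4
        simp only [set_pc, pk] at p5
        have r6 := Run.lin (ρ := ρ) (g := g5) (L := [.const 1 1, .op .add (4 * l + 2) (4 * l + 2) 1])
          rfl (by rw [p5]; exact At.left (M := [_]) hA6)
        have r7 := Run.one (ρ := ρ) (g := execL ρ [.const 1 1, .op .add (4 * l + 2) (4 * l + 2) 1] g5)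
          (by simp only [execL, Instr.exec, set_pc, p5]; exact hA6.tail.tail.head)
        have c5 : (g5.reg (4 * l + 2)).toNat = k := by
          rw [k5 _ (by omega) (by omega), set_ne _ _ (by omega)]
          exact (congrArg BitVec.toNat (set_ne gk 1 n21)).trans ck
        have b5 : (g5.reg (4 * l + 3)).toNat = n := by
          rw [k5 _ (by omega) (by omega), set_ne _ _ (by omega)]
          exact (congrArg BitVec.toNat (set_ne gk 1 n31)).trans bk
        refine ⟨_, ((((((rk.trans r2).trans r3).trans r4).trans r5).trans r6).trans r7).mono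
          (by rw [Finset.sum_range_succ]; simp; omega), rfl, ?_, ?_, ?_, ?_⟩
        · exact ((S5.other _ (by omega) (by omega)).other _ (by omega) (by omega)).pc _
        · simp only [execL, Instr.exec, WOp.eval, set_same, set_ne _ _ n21, BitVec.toNat_add, c5,
            BitVec.toNat_ofNat, Nat.mod_eq_of_lt h1]
          exact Nat.mod_eq_of_lt (by omega)
        · simp only [execL, Instr.exec, set_ne _ _ n23, set_ne _ _ n31, b5]
        · have k4 : Keep l g (Cfg.set { gk.set 1 1 with pc := (gk.set 1 1).pc + 1 } (4 * i)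
              (gk.reg (4 * l + 2))) :=
            Keep.set (g' := { gk.set 1 1 with pc := (gk.set 1 1).pc + 1 })
              (kk.set (r := 1) 1 (by omega)) _ (by omega)
          exact ((k4.trans k5 (by omega)).set (r := 1) _ (by omega)).set _ (by omega)
    obtain ⟨gk, rk, pk, Sk, ck, bk, kk⟩ := key n le_rfl
    have r2 := Run.one (ρ := ρ) (g := gk) (pk ▸ hA2.head)
    simp only [Instr.exec, WOp.eval, ck, bk, lt_irrefl, if_false] at r2
    have r3 := Run.one (ρ := ρ) (g := gk.set 1 0) (by rw [set_pc, pk]; exact hA3.head)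
    simp only [Instr.exec, set_same, if_true] at r3
    refine ⟨_, ((rk.trans r2).trans r3).mono ?_, by simp only [lenP]; omega,
      (Sk.other _ (by omega) (by omega)).pc _, kk.set (r := 1) 0 (by omega)⟩
    have : ∑ m ∈ Finset.range n, (4 * τ m + 6) ≤ 4 * ∑ m ∈ Finset.range n, (τ m + 2) := by
      rw [Finset.mul_sum]
      exact Finset.sum_le_sum fun m _ => by omega
    omega

end Vale.Agent.P315R45
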