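import Vale.Agent.P315.Model

/-! The standard randomised word RAM: words of `w` bits, one memory of `2 ^ w` words, registers,
a program counter, jumps. -/

set_option autoImplicit false

namespace Vale.Agent.P315R45

open Vale.Agent.P315

/-- The unit-cost operations on two words. -/
inductive WOp
  | add | sub | mul | div | mod | and | or | xor | shl | shr | eq | lt

/-- The value of an operation on two `w`-bit words: arithmetic modulo `2 ^ w`, unsigned division
and remainder, bitwise operations, shifts, and comparisons with value `1` or `0`. -/
def WOp.eval {w : ℕ} : WOp → BitVec w → BitVec w → BitVec w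
  | .add, a, b => a + b
  | .sub, a, b => a - b
  | .mul, a, b => a * b
  | .div, a, b => a / b
  | .mod, a, b => a % b
  | .and, a, b => a &&& b
  | .or, a, b => a ||| b
  | .xor, a, b => a ^^^ b
  | .shl, a, b => a <<< b.toNat
  | .shr, a, b => a >>> b.toNat
  | .eq, a, b => if a = b then 1 else 0
  | .lt, a, b => if a.toNat < b.toNat then 1 else 0

/-- Instructions, with registers `R` and memory `M`: `R i := c`; `R i := R j o R k`;
`R i := M (R j)`; `M (R i) := R j`; `R i :=` a fresh random word; go to line `l`; go to line `l`
if `R i = 0`. A program is a list of instructions. -/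
inductive Instr
  | const (i c : ℕ)
  | op (o : WOp) (i j k : ℕ)
  | load (i j : ℕ)
  | store (i j : ℕ)
  | rand (i : ℕ)
  | jump (l : ℕ)
  | jz (i l : ℕ)

/-- A configuration: the program counter, the registers, the memory (`2 ^ w` words, addressed by
words), and the number of random words used so far. -/
structure Cfg (w : ℕ) where
  pc : ℕ
  reg : ℕ → BitVec w
  mem : BitVec w → BitVec w
  coins : ℕ

/-- Write `v` to register `i` and go to the next line. -/
def Cfg.set {w : ℕ} (g : Cfg w) (i : ℕ) (v : BitVec w) : Cfg w :=
  { g with pc := g.pc + 1, reg := Function.update g.reg i v }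

/-- The effect of one instruction; `ρ 0, ρ 1, …` are the random words. -/
def Instr.exec {w : ℕ} (ρ : ℕ → BitVec w) : Instr → Cfg w → Cfg w
  | .const i c, g => g.set i (BitVec.ofNat w c)
  | .op o i j k, g => g.set i (o.eval (g.reg j) (g.reg k))
  | .load i j, g => g.set i (g.mem (g.reg j))
  | .store i j, g => { g with pc := g.pc + 1, mem := Function.update g.mem (g.reg i) (g.reg j) }
  | .rand i, g => { g.set i (ρ g.coins) with coins := g.coins + 1 }
  | .jump l, g => { g with pc := l }
  | .jz i l, g => { g with pc := if g.reg i = 0 then l else g.pc + 1 }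

/-- One step of the program `P`: the instruction in the line given by the program counter is
carried out. If there is no such line, the machine has halted and nothing changes. -/
def step {w : ℕ} (P : List Instr) (ρ : ℕ → BitVec w) (g : Cfg w) : Cfg w :=
  match P[g.pc]? with
  | none => g
  | some I => I.exec ρ g

/-- The initial configuration: the memory holds `|x|`, `|y|`, the symbols of `x`, the symbols of
`y`, one in each word from address `0` on; all else is `0`. -/
def start (w : ℕ) (x y : List ℕ) : Cfg w where
  pc := 0
  reg := fun _ => 0
  mem := fun a => BitVec.ofNat w ((x.length :: y.length :: (x ++ y)).getD a.toNat 0)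
  coins := 0

/-- The configuration after `T` steps on the input `x, y`. -/
def run {w : ℕ} (P : List Instr) (ρ : ℕ → BitVec w) (x y : List ℕ) (T : ℕ) : Cfg w :=
  (step P ρ)^[T] (start w x y)

/-- The sequence of random words that begins with the `T` words of `ρ` (in `T` steps at most `T`
random words are used). -/
def words {w T : ℕ} (ρ : Fin T → BitVec w) : ℕ → BitVec w :=
  fun i => if h : i < T then ρ ⟨i, h⟩ else 0

/-- The probability, for independent uniform random words, that after `T` steps register `0`
holds a number `D` with `ED x y ≤ D ≤ α ED x y`. -/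
noncomputable def success (α : ℝ) (P : List Instr) (w T : ℕ) (x y : List ℕ) : ℝ :=
  (Nat.card {ρ : Fin T → BitVec w // ED x y ≤ ((run P (words ρ) x y T).reg 0).toNat ∧
    ((((run P (words ρ) x y T).reg 0).toNat : ℕ) : ℝ) ≤ α * ED x y} : ℝ) /
    Nat.card (Fin T → BitVec w)

/-- With words of `w` bits and on the input `x, y`, the program `P` halts within `T` steps
whatever the random words are, and its output is an `α`-approximation of the edit distance with
probability at least `2/3`. -/
def Approx (α : ℝ) (P : List Instr) (w T : ℕ) (x y : List ℕ) : Prop :=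
  (∀ ρ : ℕ → BitVec w, P.length ≤ (run P ρ x y T).pc) ∧ 2 / 3 ≤ success α P w T x y

/-- There is an `α`-approximation algorithm with running time `O(n ^ β)` for strings of length at
most `n` over the alphabet `{0, …, (n + 2) ^ a - 1}`, with words of `Θ(log n)` bits. -/
def InTime (α : ℝ) (a : ℕ) (β : ℝ) : Prop :=
  ∃ (P : List Instr) (k : ℕ) (C : ℝ), ∀ (n : ℕ) (x y : List ℕ), x.length ≤ n → y.length ≤ n →
    (∀ s ∈ x ++ y, s < (n + 2) ^ a) →
    Approx α P (k * Nat.clog 2 (n + 2)) ⌈C * ((n : ℝ) + 1) ^ β⌉₊ x y

end Vale.Agent.P315R45
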