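import Vale.Agent.P315R45.Defs

/-! Runs of the word RAM, and the code for the expressions of the structured language. -/

set_option autoImplicit false

namespace Vale.Agent.P315R45

open Vale.Agent.P315

section Run

variable {w : ℕ} {P : List Instr} {ρ : ℕ → BitVec w}

/-- The code `L` stands in `P` from line `o` on. -/
def At (P : List Instr) (o : ℕ) (L : List Instr) : Prop :=
  ∀ i I, L[i]? = some I → P[o + i]? = some I

theorem At.left {o : ℕ} {L M : List Instr} (h : At P o (L ++ M)) : At P o L := fun i I hi =>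
  h i I (by rw [List.getElem?_append_left (List.getElem?_eq_some_iff.1 hi).1, hi])

theorem At.right {o n : ℕ} {L M : List Instr} (h : At P o (L ++ M)) (hn : n = o + L.length) :
    At P n M := fun i I hi => by
  have := h (L.length + i) I (by rw [List.getElem?_append_right (by omega)]; simpa using hi)
  rwa [hn, Nat.add_assoc]

theorem At.head {o : ℕ} {I : Instr} {L : List Instr} (h : At P o (I :: L)) : P[o]? = some I :=
  h 0 I rfl

theorem At.tail {o : ℕ} {I : Instr} {L : List Instr} (h : At P o (I :: L)) : At P (o + 1) L :=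
  At.right (L := [I]) h rfl

/-- From `g` the machine reaches `g'` within `T` steps. -/
def Run (P : List Instr) (ρ : ℕ → BitVec w) (g g' : Cfg w) (T : ℕ) : Prop :=
  ∃ t ≤ T, (step P ρ)^[t] g = g'

theorem Run.refl (g : Cfg w) : Run P ρ g g 0 := ⟨0, le_rfl, rfl⟩

theorem Run.mono {g g' : Cfg w} {T T' : ℕ} (h : Run P ρ g g' T) (hT : T ≤ T') :
    Run P ρ g g' T' := by
  obtain ⟨t, ht, e⟩ := h
  exact ⟨t, ht.trans hT, e⟩

theorem Run.trans {g g' g'' : Cfg w} {T T' : ℕ} (h : Run P ρ g g' T) (h' : Run P ρ g' g'' T') :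
    Run P ρ g g'' (T + T') := by
  obtain ⟨t, ht, e⟩ := h
  obtain ⟨t', ht', e'⟩ := h'
  exact ⟨t' + t, by omega, by rw [Function.iterate_add_apply, e, e']⟩

theorem Run.one {g : Cfg w} {I : Instr} (h : P[g.pc]? = some I) : Run P ρ g (I.exec ρ g) 1 :=
  ⟨1, le_rfl, by simp only [Function.iterate_one, step, h]⟩

/-- Instructions that go to the next line. -/
def Instr.lin : Instr → Bool
  | .jump _ => false
  | .jz _ _ => false
  | _ => true

/-- Straight-line execution. -/
def execL (ρ : ℕ → BitVec w) : List Instr → Cfg w → Cfg w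
  | [], g => g
  | I :: L, g => execL ρ L (I.exec ρ g)

theorem lin_pc {I : Instr} (h : I.lin = true) (g : Cfg w) : (I.exec ρ g).pc = g.pc + 1 := by
  cases I <;> first | rfl | simp [Instr.lin] at h

theorem Run.lin {L : List Instr} (hL : L.all Instr.lin = true) {g : Cfg w} (h : At P g.pc L) :
    Run P ρ g (execL ρ L g) L.length := by
  induction L generalizing g with
  | nil => exact Run.refl g
  | cons I L ih =>
    rw [List.all_cons, Bool.and_eq_true] at hL
    have h1 := ih hL.2 (g := I.exec ρ g) (by rw [lin_pc hL.1]; exact h.tail)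
    exact ((Run.one h.head).trans h1).mono (by simp [Nat.add_comm])

theorem step_halt {g : Cfg w} (h : P.length ≤ g.pc) (t : ℕ) : (step P ρ)^[t] g = g :=
  Function.iterate_fixed (by simp only [step, List.getElem?_eq_none h]) t

theorem Run.final {g g' : Cfg w} {T T' : ℕ} (h : Run P ρ g g' T) (hg : P.length ≤ g'.pc)
    (hT : T ≤ T') : (step P ρ)^[T'] g = g' := by
  obtain ⟨t, ht, e⟩ := h
  obtain ⟨u, rfl⟩ : ∃ u, T' = u + t := ⟨T' - t, by omega⟩
  rw [Function.iterate_add_apply, e, step_halt hg]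

@[simp] theorem set_pc (g : Cfg w) (i : ℕ) (v : BitVec w) : (g.set i v).pc = g.pc + 1 := rfl
@[simp] theorem set_mem (g : Cfg w) (i : ℕ) (v : BitVec w) : (g.set i v).mem = g.mem := rfl
@[simp] theorem set_coins (g : Cfg w) (i : ℕ) (v : BitVec w) : (g.set i v).coins = g.coins := rfl

theorem set_same (g : Cfg w) (i : ℕ) (v : BitVec w) : (g.set i v).reg i = v := by
  simp [Cfg.set]

theorem set_ne (g : Cfg w) {i r : ℕ} (v : BitVec w) (h : r ≠ i) : (g.set i v).reg r = g.reg r := by
  simp [Cfg.set, Function.update_of_ne h]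

end Run

/-- The code that computes the address of entry `R r` of block `j` in register `r`. -/
def addr (r r' j : ℕ) : List Instr := [.const r' j, .op .mul r' r' 3, .op .add r r' r]

/-- The code of an operation. -/
def compO : Op → ℕ → List Instr
  | .add, r => [.op .add r r (r + 4)]
  | .sub, r => [.op .lt (r + 8) (r + 4) r, .op .sub r r (r + 4), .op .mul r r (r + 8)]
  | .mul, r => [.op .mul r r (r + 4)]
  | .div, r => [.op .div r r (r + 4)]
  | .mod, r => [.op .mod r r (r + 4)]
  | .eq, r => [.op .eq r r (r + 4)]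
  | .lt, r => [.op .lt r r (r + 4)]

/-- The code of an expression; the value goes to register `4 d + 1`. -/
def compE (sh : ℕ) : Expr → ℕ → List Instr
  | .lit c, d => [.const (4 * d + 1) c]
  | .reg i, d => [.op .or (4 * d + 1) (4 * i) (4 * i)]
  | .get j e, d => compE sh e d ++
      (addr (4 * d + 1) (4 * d + 5) (j + sh) ++ [.load (4 * d + 1) (4 * d + 1)])
  | .op o e e', d => compE sh e d ++ (compE sh e' (d + 1) ++ compO o (4 * d + 1))

/-- The length of the code of an expression. -/
def lenE : Expr → ℕ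
  | .lit _ => 1
  | .reg _ => 1
  | .get _ e => lenE e + 4
  | .op o e e' => lenE e + (lenE e' + (compO o 0).length)

theorem compO_len (o : Op) (r : ℕ) : (compO o r).length = (compO o 0).length := by
  cases o <;> rfl

theorem compE_len (sh : ℕ) (e : Expr) (d : ℕ) : (compE sh e d).length = lenE e := by
  induction e generalizing d with
  | lit c => rfl
  | reg i => rfl
  | get j e ih => simp [compE, lenE, ih, addr]
  | op o e e' ih ih' => simp [compE, lenE, ih, ih', compO_len o (4 * d + 1)]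

/-- A bound for the arrays of an expression. -/
def mxE : Expr → ℕ
  | .lit _ => 0
  | .reg _ => 0
  | .get j e => max (j + 1) (mxE e)
  | .op _ e e' => max (mxE e) (mxE e')

/-- The configuration `g` represents the state `s`. -/
structure Sim (b c sh : ℕ) (s : State) (g : Cfg (b + c)) : Prop where
  reg : ∀ i, (g.reg (4 * i)).toNat = s.reg i
  arr : ∀ j a, j + sh < 2 ^ c → a < 2 ^ b →
    (g.mem (BitVec.ofNat _ ((j + sh) * 2 ^ b + a))).toNat = s.arr j a
  coins : g.coins = s.coins
  base : (g.reg 3).toNat = 2 ^ b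

/-- Only the scratch registers from level `d` on have changed. -/
structure Fr {w : ℕ} (d : ℕ) (g g' : Cfg w) : Prop where
  mem : g'.mem = g.mem
  coins : g'.coins = g.coins
  reg : ∀ r, (r % 4 ≠ 1 ∨ r < 4 * d + 1) → g'.reg r = g.reg r

theorem Fr.trans {w d d' : ℕ} {g g' g'' : Cfg w} (h : Fr d g g') (h' : Fr d' g' g'')
    (hd : d ≤ d') : Fr d g g'' :=
  ⟨h'.mem.trans h.mem, h'.coins.trans h.coins, fun r hr =>
    (h'.reg r (by omega)).trans (h.reg r hr)⟩

theorem Fr.set {w d : ℕ} {g g' : Cfg w} (h : Fr d g g') {r : ℕ} (v : BitVec w) (h1 : r % 4 = 1)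
    (h2 : 4 * d + 1 ≤ r) : Fr d g (g'.set r v) :=
  ⟨h.mem, h.coins, fun r' hr => (set_ne g' v (by omega)).trans (h.reg r' hr)⟩

theorem Fr.refl {w : ℕ} (d : ℕ) (g : Cfg w) : Fr d g g := ⟨rfl, rfl, fun _ _ => rfl⟩

theorem Sim.fr {b c sh d : ℕ} {s : State} {g g' : Cfg (b + c)} (h : Sim b c sh s g)
    (f : Fr d g g') : Sim b c sh s g' :=
  ⟨fun i => by rw [f.reg _ (by omega), h.reg], fun j a hj ha => by rw [f.mem, h.arr j a hj ha],
    f.coins.trans h.coins, by rw [f.reg _ (by omega), h.base]⟩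

theorem eval_lt {N : ℕ} {s : State} {e : Expr} {v t : ℕ} (h : Eval N s e v t) : v < N := by
  cases h <;> assumption

theorem addr_lt {b c j a : ℕ} (hj : j < 2 ^ c) (ha : a < 2 ^ b) : j * 2 ^ b + a < 2 ^ (b + c) := by
  have : (j + 1) * 2 ^ b ≤ 2 ^ c * 2 ^ b := Nat.mul_le_mul_right _ hj
  rw [pow_add, Nat.mul_comm (2 ^ b)]
  nlinarith

theorem two_le {b c : ℕ} : 2 ^ b ≤ 2 ^ (b + c) := Nat.pow_le_pow_right (by omega) (by omega)

theorem addr_spec {b c j a r r' : ℕ} (ρ : ℕ → BitVec (b + c)) (g : Cfg (b + c))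
    (hb : (g.reg 3).toNat = 2 ^ b) (ha : (g.reg r).toNat = a) (h1 : r ≠ r') (h2 : 3 ≠ r') :
    ∃ u v, execL ρ (addr r r' j) g =
      ((g.set r' u).set r' v).set r (BitVec.ofNat _ (j * 2 ^ b + a)) := by
  refine ⟨BitVec.ofNat _ j, BitVec.ofNat _ j * g.reg 3, ?_⟩
  simp only [addr, execL, Instr.exec, WOp.eval, set_same, set_ne _ _ h2, set_ne _ _ h1]
  congr 1
  apply BitVec.eq_of_toNat_eq
  simp only [BitVec.toNat_add, BitVec.toNat_mul, BitVec.toNat_ofNat, hb, ha]
  simp

theorem compO_spec {b c : ℕ} (hc : 1 ≤ c) (ρ : ℕ → BitVec (b + c)) (o : Op) (d : ℕ)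
    (g : Cfg (b + c)) {a a' : ℕ} (ha : (g.reg (4 * d + 1)).toNat = a)
    (ha' : (g.reg (4 * d + 1 + 4)).toNat = a') (h : o.eval a a' < 2 ^ b) :
    ((execL ρ (compO o (4 * d + 1)) g).reg (4 * d + 1)).toNat = o.eval a a' ∧
      Fr d g (execL ρ (compO o (4 * d + 1)) g) ∧
      (execL ρ (compO o (4 * d + 1)) g).pc = g.pc + (compO o 0).length := by
  have h2 : o.eval a a' < 2 ^ (b + c) := h.trans_le two_le
  have h1 : 1 < 2 ^ (b + c) := Nat.one_lt_two_pow (by omega)
  have f1 : ∀ v, Fr d g (g.set (4 * d + 1) v) := fun v =>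
    (Fr.refl d g).set v (by omega) le_rfl
  cases o
  · refine ⟨?_, f1 _, rfl⟩
    simp only [compO, execL, Instr.exec, WOp.eval, set_same, BitVec.toNat_add, ha, ha']
    exact Nat.mod_eq_of_lt h2
  · refine ⟨?_, ?_, rfl⟩
    · have n1 : 4 * d + 1 + 4 ≠ 4 * d + 1 + 8 := by omega
      have n2 : 4 * d + 1 ≠ 4 * d + 1 + 8 := by omega
      simp only [compO, execL, Instr.exec, WOp.eval, set_same, set_ne _ _ n1, set_ne _ _ n2,
        set_ne _ _ n2.symm, ha, ha']
      split_ifs with hh
      · rw [_root_.mul_one, BitVec.toNat_sub_of_le (by rw [BitVec.le_def]; omega), ha, ha']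
        rfl
      · simp only [BitVec.mul_zero, BitVec.toNat_zero, Op.eval]
        simp
        omega
    · exact (((Fr.refl d g).set _ (by omega) (by omega)).set _ (by omega) le_rfl).set _
        (by omega) le_rfl
  · refine ⟨?_, f1 _, rfl⟩
    simp only [compO, execL, Instr.exec, WOp.eval, set_same, BitVec.toNat_mul, ha, ha']
    exact Nat.mod_eq_of_lt h2
  · refine ⟨?_, f1 _, rfl⟩
    simp only [compO, execL, Instr.exec, WOp.eval, set_same, BitVec.toNat_udiv, ha, ha']
    rfl
  · refine ⟨?_, f1 _, rfl⟩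
    simp only [compO, execL, Instr.exec, WOp.eval, set_same, BitVec.toNat_umod, ha, ha']
    rfl
  · refine ⟨?_, f1 _, rfl⟩
    simp only [compO, execL, Instr.exec, WOp.eval, set_same, Op.eval, ← BitVec.toNat_inj, ha, ha']
    split_ifs
    · simpa using Nat.mod_eq_of_lt h1
    · simp
  · refine ⟨?_, f1 _, rfl⟩
    simp only [compO, execL, Instr.exec, WOp.eval, set_same, Op.eval, ha, ha']
    split_ifs
    · simpa using Nat.mod_eq_of_lt h1
    · simp

theorem compO_lin (o : Op) (r : ℕ) : (compO o r).all Instr.lin = true := by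
  cases o <;> rfl

theorem compO_le (o : Op) : (compO o 0).length ≤ 3 := by
  cases o <;> simp [compO]

/-- The code of an expression computes its value. -/
theorem evalE {b c sh : ℕ} (hc : 1 ≤ c) {P : List Instr} {ρ : ℕ → BitVec (b + c)} {s : State}
    {e : Expr} {v t : ℕ} (h : Eval (2 ^ b) s e v t) :
    ∀ (d : ℕ) (g : Cfg (b + c)), mxE e + sh ≤ 2 ^ c → At P g.pc (compE sh e d) →
      Sim b c sh s g → ∃ g', Run P ρ g g' (4 * t) ∧ g'.pc = g.pc + lenE e ∧
        (g'.reg (4 * d + 1)).toNat = v ∧ Fr d g g' := by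
  induction h with
  | lit k h =>
    intro d g _ hA _
    refine ⟨_, (Run.one hA.head).mono (by omega), rfl, ?_, (Fr.refl d g).set _ (by omega) le_rfl⟩
    simp only [Instr.exec, set_same, BitVec.toNat_ofNat]
    exact Nat.mod_eq_of_lt (h.trans_le two_le)
  | reg i h =>
    intro d g _ hA hS
    refine ⟨_, (Run.one hA.head).mono (by omega), rfl, ?_, (Fr.refl d g).set _ (by omega) le_rfl⟩
    simp only [Instr.exec, set_same, WOp.eval, BitVec.or_self, hS.reg]
  | get j e a t he h ih =>
    intro d g hm hA hS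
    simp only [mxE] at hm
    obtain ⟨g1, r1, p1, v1, f1⟩ := ih d g (by omega) hA.left hS
    have hA1 := hA.right (n := g1.pc) (by rw [p1, compE_len])
    have hS1 := hS.fr f1
    have r2 := Run.lin (ρ := ρ) (L := addr (4 * d + 1) (4 * d + 5) (j + sh)) rfl hA1.left
    obtain ⟨u, v, e2⟩ := addr_spec (j := j + sh) (r' := 4 * d + 5) ρ g1 hS1.base v1 (by omega)
      (by omega)
    rw [e2] at r2
    have hA2 := hA1.right (n := g1.pc + 1 + 1 + 1) rfl
    refine ⟨_, ((r1.trans r2).trans (Run.one hA2.head)).mono (by simp [addr]; omega), ?_, ?_, ?_⟩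
    · simp only [Instr.exec, set_pc, p1, lenE]; omega
    · simp only [Instr.exec, set_same, set_mem]
      exact hS1.arr j a (by omega) (eval_lt he)
    · exact (((f1.set _ (by omega) (by omega)).set _ (by omega) (by omega)).set _ (by omega)
        le_rfl).set _ (by omega) le_rfl
  | op o e e' a a' t t' he he' h ih ih' =>
    intro d g hm hA hS
    simp only [mxE] at hm
    obtain ⟨g1, r1, p1, v1, f1⟩ := ih d g (by omega) hA.left hS
    have hA1 := hA.right (n := g1.pc) (by rw [p1, compE_len])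
    obtain ⟨g2, r2, p2, v2, f2⟩ := ih' (d + 1) g1 (by omega) hA1.left (hS.fr f1)
    have hA2 := hA1.right (n := g2.pc) (by rw [p2, compE_len])
    have r3 := Run.lin (ρ := ρ) (compO_lin o _) hA2
    obtain ⟨v3, f3, p3⟩ := compO_spec hc ρ o d g2 (a := a) (a' := a')
      (by rw [f2.reg _ (by omega), v1]) v2 h
    have := compO_le o
    refine ⟨_, ((r1.trans r2).trans r3).mono (by rw [compO_len]; omega), ?_, v3,
      (f1.trans f2 (by omega)).trans f3 le_rfl⟩
    rw [p3, p2, p1, lenE]; omega

end Vale.Agent.P315R45
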