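import Vale.Agent.P315R45.Defs
import Vale.Agent.P315Z.Lower

/-! The linear lower bound on the word RAM: a run that does not read a memory cell does not depend
on its content. -/

set_option autoImplicit false

namespace Vale.Agent.P315R45

open Vale.Agent.P315 Finset

variable {w : ℕ}

/-- The configurations agree except possibly in the memory cell with address `i`. -/
def Near (i : ℕ) (g g' : Cfg w) : Prop :=
  g.pc = g'.pc ∧ g.reg = g'.reg ∧ g.coins = g'.coins ∧ ∀ a, a.toNat ≠ i → g.mem a = g'.mem a

theorem step_loc (P : List Instr) (ρ : ℕ → BitVec w) (g : Cfg w) :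
    ∃ a : ℕ, ∀ i, i ≠ a → ∀ g', Near i g g' → Near i (step P ρ g) (step P ρ g') := by
  rcases hI : P[g.pc]? with _ | I
  · refine ⟨0, fun i _ g' h => ?_⟩
    simp only [step, ← h.1, hI]
    exact h
  cases I with
  | load r j =>
    refine ⟨(g.reg j).toNat, fun i hi g' h => ?_⟩
    obtain ⟨h1, h2, h3, h4⟩ := h
    simp only [step, ← h1, hI, Instr.exec, Cfg.set, ← h2, ← h4 _ hi.symm]
    exact ⟨rfl, rfl, h3, h4⟩
  | store r j =>
    refine ⟨0, fun i _ g' h => ?_⟩
    obtain ⟨h1, h2, h3, h4⟩ := h
    simp only [step, ← h1, hI, Instr.exec, ← h2]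
    refine ⟨rfl, rfl, h3, fun a ha => ?_⟩
    simp only [Function.update_apply, h4 a ha]
  | _ =>
    refine ⟨0, fun i _ g' h => ?_⟩
    obtain ⟨h1, h2, h3, h4⟩ := h
    simp only [step, ← h1, hI, Instr.exec, Cfg.set, ← h2, ← h3]
    exact ⟨rfl, rfl, rfl, h4⟩

theorem iter_loc (P : List Instr) (ρ : ℕ → BitVec w) (t : ℕ) (g : Cfg w) :
    ∃ R : Finset ℕ, R.card ≤ t ∧
      ∀ i ∉ R, ∀ g', Near i g g' → Near i ((step P ρ)^[t] g) ((step P ρ)^[t] g') := by
  induction t generalizing g with
  | zero => exact ⟨∅, le_rfl, fun i _ g' h => h⟩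
  | succ t ih =>
    obtain ⟨a, ha⟩ := step_loc P ρ g
    obtain ⟨R, hR, H⟩ := ih (step P ρ g)
    refine ⟨insert a R, (card_insert_le _ _).trans (by omega), fun i hi g' h => ?_⟩
    rw [mem_insert, not_or] at hi
    exact H i hi.2 _ (ha i hi.1 g' h)

theorem step_coins (P : List Instr) (ρ : ℕ → BitVec w) (g : Cfg w) :
    (step P ρ g).coins ≤ g.coins + 1 := by
  rcases hI : P[g.pc]? with _ | I
  · simp [step, hI]
  · cases I <;> simp [step, hI, Instr.exec, Cfg.set]

theorem iter_tape (P : List Instr) {ρ ρ' : ℕ → BitVec w} (t : ℕ) (g : Cfg w)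
    (h : ∀ i < g.coins + t, ρ i = ρ' i) : (step P ρ)^[t] g = (step P ρ')^[t] g := by
  induction t generalizing g with
  | zero => rfl
  | succ t ih =>
    have e : step P ρ g = step P ρ' g := by
      rcases hI : P[g.pc]? with _ | I
      · simp only [step, hI]
      · cases I <;> simp only [step, hI, Instr.exec, h g.coins (by omega)]
    have := step_coins P ρ' g
    rw [Function.iterate_succ_apply, Function.iterate_succ_apply, e]
    exact ih _ fun i hi => h i (by omega)

/-- A run of `T` steps depends only on the first `T` random words. -/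
theorem run_words (P : List Instr) (ρ : ℕ → BitVec w) (x y : List ℕ) (T : ℕ) :
    run P ρ x y T = run P (words fun i : Fin T => ρ i) x y T :=
  iter_tape P T _ fun i hi => by
    have : i < T := by simpa [start] using hi
    simp [words, this]

theorem ED_isLeast (x y : List ℕ) : IsLeast {k : ℕ | Edits k x y} (ED x y) :=
  ⟨Nat.sInf_mem ⟨_, (script_lev x y).edits⟩, fun _ hk => Nat.sInf_le hk⟩

open Vale.Agent.P315Z.Lower in
theorem near_start (n i : ℕ) :
    Near (n + i + 2) (start w (List.replicate n 0) (List.replicate n 0))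
      (start w (List.replicate n 0) (unit n i)) := by
  refine ⟨rfl, rfl, rfl, fun a ha => ?_⟩
  simp only [start]
  congr 1
  have e : (List.replicate n 0).length :: (unit n i).length :: (List.replicate n 0 ++ unit n i) =
      ((List.replicate n 0).length :: (List.replicate n 0).length ::
        (List.replicate n 0 ++ List.replicate n 0)).set (n + i + 2) 1 := by
    simp only [unit, List.length_set, List.set_cons_succ]
    rw [List.set_append_right _ _ (by simp)]
    simp
  rw [e, List.getD_eq_getElem?_getD, List.getD_eq_getElem?_getD,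
    List.getElem?_set_ne (Ne.symm ha)]

theorem success_iff {α : ℝ} {P : List Instr} {T : ℕ} {x y : List ℕ} :
    2 / 3 ≤ success α P w T x y ↔ 2 * Nat.card (Fin T → BitVec w) ≤
      3 * Nat.card {ρ : Fin T → BitVec w // ED x y ≤ ((run P (words ρ) x y T).reg 0).toNat ∧
        ((((run P (words ρ) x y T).reg 0).toNat : ℕ) : ℝ) ≤ α * ED x y} := by
  have h : (0 : ℝ) < Nat.card (Fin T → BitVec w) := Nat.cast_pos.2 Nat.card_pos
  rw [success, div_le_div_iff₀ (by norm_num) h, mul_comm _ (3 : ℝ)]
  norm_cast

open Vale.Agent.P315Z.Lower in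
/-- The linear lower bound. -/
theorem lower (α : ℝ) (P : List Instr) (n w T : ℕ)
    (h : ∀ x y : List ℕ, x.length = n → y.length = n → (∀ a ∈ x ++ y, a < 2) →
      2 / 3 ≤ success α P w T x y) : n ≤ 3 * T := by
  classical
  set z := List.replicate n 0 with hz
  let G : List ℕ → Finset (Fin T → BitVec w) := fun y => univ.filter fun ρ =>
    ED z y ≤ ((run P (words ρ) z y T).reg 0).toNat ∧
      ((((run P (words ρ) z y T).reg 0).toNat : ℕ) : ℝ) ≤ α * ED z y
  set M := Fintype.card (Fin T → BitVec w) with hM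
  have hG : ∀ y : List ℕ, y.length = n → (∀ a ∈ y, a < 2) → 2 * M ≤ 3 * (G y).card := by
    intro y hy hy'
    have := success_iff.1 (h z y (by simp [hz]) hy (fun a ha => by
      rcases List.mem_append.1 ha with ha | ha
      · rw [List.eq_of_mem_replicate ha]; omega
      · exact hy' a ha))
    rwa [Nat.card_eq_fintype_card, Nat.card_eq_fintype_card, Fintype.card_subtype] at this
  have h0 := hG z (by simp [hz]) (fun a ha => by rw [List.eq_of_mem_replicate ha]; omega)
  have h1 : ∀ i ∈ range n, M ≤ 3 * ((G z).filter fun ρ => ρ ∈ G (unit n i)).card := by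
    intro i _
    have h2 := hG (unit n i) (by simp [unit]) (fun a ha => by
      rcases List.mem_or_eq_of_mem_set ha with ha | ha
      · rw [List.eq_of_mem_replicate ha]; omega
      · omega)
    have h3 := card_union_add_card_inter (G z) (G (unit n i))
    have h4 : (G z ∪ G (unit n i)).card ≤ M := card_le_univ _
    rw [filter_mem_eq_inter]
    omega
  have h2 : ∀ ρ ∈ G z, ((range n).filter fun i => ρ ∈ G (unit n i)).card ≤ T := by
    intro ρ hρ
    obtain ⟨-, hs⟩ := (mem_filter.1 hρ).2
    obtain ⟨R, hR, H⟩ := iter_loc P (words ρ) T (start w z z)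
    refine (card_le_card_of_injOn (fun i => n + i + 2) (fun i hi => ?_)
      (fun i _ j _ e => by simpa using e)).trans hR
    by_contra hc
    obtain ⟨hi, hi'⟩ := mem_filter.1 (mem_coe.1 hi)
    obtain ⟨hs', -⟩ := (mem_filter.1 hi').2
    have e : (run P (words ρ) z z T).reg = (run P (words ρ) z (unit n i) T).reg :=
      (H _ hc _ (near_start n i)).2.1
    have e0 : ED z z = 0 := by rw [ED_eq_lev, lev_self]
    have e1 : ((run P (words ρ) z z T).reg 0).toNat = 0 := by
      rw [e0, Nat.cast_zero, mul_zero] at hs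
      exact_mod_cast le_antisymm hs (Nat.cast_nonneg _)
    exact unit_ne (mem_range.1 hi) (eq_of_ED (by rw [← e, e1] at hs'; exact Nat.le_zero.1 hs'))
  have h3 : ∑ i ∈ range n, ((G z).filter fun ρ => ρ ∈ G (unit n i)).card =
      ∑ ρ ∈ G z, ((range n).filter fun i => ρ ∈ G (unit n i)).card := by
    simp only [card_filter]
    exact sum_comm
  have h4 : n * M ≤ 3 * ((G z).card * T) := by
    calc n * M = ∑ _i ∈ range n, M := by simp
      _ ≤ ∑ i ∈ range n, 3 * ((G z).filter fun ρ => ρ ∈ G (unit n i)).card := sum_le_sum h1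
      _ = 3 * ∑ ρ ∈ G z, ((range n).filter fun i => ρ ∈ G (unit n i)).card := by
        rw [← mul_sum, h3]
      _ ≤ 3 * ((G z).card * T) := by
        have := sum_le_sum h2
        rw [sum_const, smul_eq_mul] at this
        omega
  have h5 : (G z).card ≤ M := card_le_univ _
  have h6 : 0 < M := Fintype.card_pos_iff.2 ⟨fun _ => 0⟩
  have h7 : n * M ≤ 3 * T * M := by nlinarith [Nat.mul_le_mul_right T h5]
  exact Nat.le_of_mul_le_mul_right h7 h6

end Vale.Agent.P315R45
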