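import Vale.Agent.P315R45.Pro
import Vale.Agent.P315R45.Low
import Vale.Agent.P315Z.Final

/-! The upper bound on the word RAM, and the exponent of the running time. -/

set_option autoImplicit false

namespace Vale.Agent.P315R45

open Vale.Agent.P315

/-- A word of `b + c` bits is a pair of its high and its low bits. -/
def splitW (b c : ℕ) : BitVec (b + c) ≃ Fin (2 ^ b) × Fin (2 ^ c) :=
  (BitVec.equivFin.toEquiv.trans (finCongr (pow_add 2 b c))).trans finProdFinEquiv.symm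

theorem splitW_fst (b c : ℕ) (v : BitVec (b + c)) :
    ((splitW b c v).1 : ℕ) = v.toNat / 2 ^ c := rfl

theorem card_transfer {T b c : ℕ} (Q : (Fin T → Fin (2 ^ b)) → Prop)
    (h : 2 * Nat.card (Fin T → Fin (2 ^ b)) ≤ 3 * Nat.card {u // Q u}) :
    2 * Nat.card (Fin T → BitVec (b + c)) ≤
      3 * Nat.card {ρ : Fin T → BitVec (b + c) // Q fun i => (splitW b c (ρ i)).1} := by
  let E : (Fin T → BitVec (b + c)) ≃ (Fin T → Fin (2 ^ b)) × (Fin T → Fin (2 ^ c)) :=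
    (Equiv.piCongrRight fun _ => splitW b c).trans (Equiv.arrowProdEquivProdArrow _ _ _)
  have e1 : Nat.card {ρ : Fin T → BitVec (b + c) // Q fun i => (splitW b c (ρ i)).1} =
      Nat.card ({u // Q u} × (Fin T → Fin (2 ^ c))) :=
    Nat.card_congr ((E.subtypeEquiv (q := fun p => Q p.1) fun _ => Iff.rfl).trans
      Equiv.prodSubtypeFstEquivSubtypeProd)
  rw [e1, Nat.card_congr E, Nat.card_prod, Nat.card_prod, ← Nat.mul_assoc, ← Nat.mul_assoc]
  exact Nat.mul_le_mul_right _ h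

theorem tape_words {T b c : ℕ} (ρ : Fin T → BitVec (b + c)) :
    tape (fun i => (splitW b c (ρ i)).1) = fun i => (words ρ i).toNat / 2 ^ c := by
  funext i
  simp only [tape, words]
  split_ifs
  · rfl
  · simp

/-- One word RAM program whose time is `n ^ (1 + o(1))`. -/
theorem upper {ε : ℝ} (hε : 0 < ε) : ∃ (k : ℕ) (P : List Instr), ∀ δ : ℝ, 0 < δ → ∃ C : ℝ,
    ∀ (n σ w T : ℕ) (x y : List ℕ), x.length ≤ n → y.length ≤ n → 0 < σ →
      (∀ a ∈ x ++ y, a < σ) → σ * (n + 2) ^ k ≤ 2 ^ w → C * ((n : ℝ) + 1) ^ (1 + δ) ≤ T →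
      Approx (1 + ε) P w T x y := by
  obtain ⟨k, Q, t, hQ, ht⟩ := Vale.Agent.P315Z.almost_linear hε
  obtain ⟨c, hc, hm⟩ : ∃ c, 2 ≤ c ∧ mxP Q + 1 ≤ 2 ^ c :=
    ⟨mxP Q + 2, by omega, le_trans (by omega) Nat.lt_two_pow_self.le⟩
  refine ⟨k + 2 + c, full c Q, fun δ hδ => ?_⟩
  obtain ⟨C, hC⟩ := ht δ hδ
  refine ⟨4 * max C 0 + 191, fun n σ w T x y hx hy hσ hs hw hT => ?_⟩
  have h1 : σ * (n + 2) ^ (k + 2) * 2 ^ c ≤ 2 ^ w := by
    refine le_trans ?_ hw
    rw [pow_add (n + 2) (k + 2), ← Nat.mul_assoc]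
    exact Nat.mul_le_mul_left _ (Nat.pow_le_pow_left (by omega) _)
  have hp : 0 < (n + 2) ^ (k + 2) := Nat.pow_pos (by omega)
  obtain ⟨b, rfl⟩ : ∃ b, w = b + c := by
    have : 2 ^ c ≤ 2 ^ w := (Nat.le_mul_of_pos_left _ (Nat.mul_pos hσ hp)).trans h1
    exact ⟨w - c, by have := (Nat.pow_le_pow_iff_right (by omega)).1 this; omega⟩
  have h2 : σ * (n + 2) ^ (k + 2) ≤ 2 ^ b := by
    rw [pow_add 2 b c] at h1
    exact Nat.le_of_mul_le_mul_right h1 (Nat.two_pow_pos c)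
  have h3 : (n + 2) ^ (k + 2) ≤ 2 ^ b := (Nat.le_mul_of_pos_left _ hσ).trans h2
  have h4 : σ ≤ 2 ^ b := (Nat.le_mul_of_pos_right _ hp).trans h2
  have h5 : (n + 2) ^ 2 ≤ 2 ^ b := (Nat.pow_le_pow_right (by omega) (by omega)).trans h3
  have hN : x.length + y.length + 2 < 2 ^ b := by nlinarith
  have hb : 1 ≤ b := by
    rcases b with _ | b
    · simp at hN
    · omega
  have hs' : ∀ a ∈ x ++ y, a < 2 ^ b := fun a ha => (hs a ha).trans_le h4
  have hn : max x.length y.length ≤ n := max_le hx hy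
  obtain ⟨H1, H2⟩ := hQ x y _ b rfl ((Nat.pow_le_pow_left (by omega) _).trans
    ((Nat.pow_le_pow_right (by omega) (show k ≤ k + 2 by omega)).trans h3)) hs'
  have hn1 : (1 : ℝ) ≤ (n : ℝ) + 1 := by have : (0 : ℝ) ≤ n := Nat.cast_nonneg n; linarith
  have hX : (n : ℝ) + 1 ≤ ((n : ℝ) + 1) ^ (1 + δ) := Real.self_le_rpow_of_one_le hn1 (by linarith)
  have htn : t (max x.length y.length) ≤ max C 0 * ((n : ℝ) + 1) ^ (1 + δ) := by
    refine (hC _).trans (mul_le_mul (le_max_left _ _) ?_ (by positivity) (le_max_right _ _))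
    exact Real.rpow_le_rpow (by positivity) (by exact_mod_cast Nat.succ_le_succ hn) (by linarith)
  have hC0 : 0 ≤ max C 0 * ((n : ℝ) + 1) ^ (1 + δ) := by positivity
  have halt : ∀ ρ : ℕ → BitVec (b + c), (full c Q).length ≤ (run (full c Q) ρ x y T).pc := by
    intro ρ
    obtain ⟨m, s, he, hm'⟩ := H1 (fun i => (ρ i).toNat / 2 ^ c) fun i =>
      Nat.div_lt_of_lt_mul (by rw [Nat.mul_comm, ← pow_add]; exact (ρ i).isLt)
    obtain ⟨g, r, hg, -⟩ := full_run hb hc hm ρ hN hs' he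
    have hle : 4 * m + 32 * (x.length + y.length) + 127 ≤ T := by
      have hx' : (x.length : ℝ) ≤ n := Nat.cast_le.2 hx
      have hy' : (y.length : ℝ) ≤ n := Nat.cast_le.2 hy
      have : ((4 * m + 32 * (x.length + y.length) + 127 : ℕ) : ℝ) ≤ T := by
        push_cast
        nlinarith
      exact_mod_cast this
    rw [run, r.final hg hle]
    exact hg
  refine ⟨halt, success_iff.2 ((card_transfer _ (H2 T (by nlinarith))).trans
    (Nat.mul_le_mul_left _ ?_))⟩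
  refine Nat.card_le_card_of_injective (Subtype.map id fun ρ hρ => ?_)
    (Subtype.map_injective _ Function.injective_id)
  obtain ⟨m, s, he, hg⟩ := hρ
  rw [tape_words] at he
  obtain ⟨g, r, hg', hv⟩ := full_run hb hc hm (words ρ) hN hs' he
  have e : run (full c Q) (words ρ) x y T = g := by
    have e1 := r.final hg' (Nat.le_add_right _ T)
    rw [Function.iterate_add_apply] at e1
    rw [← e1]
    exact (step_halt (halt (words ρ)) _).symm
  simp only [id, e, hv]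
  exact hg

theorem inTime_of {ε : ℝ} (hε : 0 < ε) (a : ℕ) {β : ℝ} (hβ : 1 < β) : InTime (1 + ε) a β := by
  obtain ⟨k, P, h⟩ := upper hε
  obtain ⟨C, hC⟩ := h (β - 1) (by linarith)
  refine ⟨P, a + k, C, fun n x y hx hy hs => hC n ((n + 2) ^ a) _ _ x y hx hy
    (Nat.pow_pos (by omega)) hs ?_ ?_⟩
  · rw [← pow_add, Nat.mul_comm, pow_mul]
    exact Nat.pow_le_pow_left (Nat.le_pow_clog (by omega) _) _
  · rw [add_sub_cancel]
    exact Nat.le_ceil _

open Filter Topology in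
theorem not_inTime (α : ℝ) {a : ℕ} (ha : 1 ≤ a) {β : ℝ} (hβ : β < 1) : ¬ InTime α a β := by
  rintro ⟨P, k, C, h⟩
  have h1 : ∀ n : ℕ, (1 : ℝ) ≤ 3 * max C 0 * ((n : ℝ) + 1) ^ (-(1 - β)) + 4 * ((n : ℝ) + 1)⁻¹ := by
    intro n
    have h2 := lower α P n _ _ fun x y hx hy hs => (h n x y hx.le hy.le fun s hs' =>
      (hs s hs').trans_le (le_trans (by omega) (Nat.le_self_pow (by omega) (n + 2)))).2
    have hp : (0 : ℝ) < (n : ℝ) + 1 := by positivity
    have h3 : ⌈C * ((n : ℝ) + 1) ^ β⌉₊ ≤ ⌈max C 0 * ((n : ℝ) + 1) ^ β⌉₊ :=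
      Nat.ceil_mono (mul_le_mul_of_nonneg_right (le_max_left _ _) (by positivity))
    have h4 := Nat.ceil_lt_add_one (show 0 ≤ max C 0 * ((n : ℝ) + 1) ^ β by positivity)
    have h5 : (n : ℝ) ≤ 3 * (⌈max C 0 * ((n : ℝ) + 1) ^ β⌉₊ : ℝ) := by
      exact_mod_cast h2.trans (Nat.mul_le_mul_left _ h3)
    rw [neg_sub, Real.rpow_sub_one hp.ne', ← div_eq_mul_inv, ← mul_div_assoc, ← add_div,
      le_div_iff₀ hp]
    linarith
  have t0 : Tendsto (fun n : ℕ => (n : ℝ) + 1) atTop atTop :=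
    tendsto_atTop_add_const_right _ _ tendsto_natCast_atTop_atTop
  have t1 := ((tendsto_rpow_neg_atTop (show 0 < 1 - β by linarith)).comp t0).const_mul
    (3 * max C 0)
  have t2 := (tendsto_inv_atTop_zero.comp t0).const_mul 4
  have := ge_of_tendsto' (t1.add t2) h1
  norm_num at this

end Vale.Agent.P315R45
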