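import Vale.Agent.P315R45.Comp

/-! The whole compiled program: set-up, copying of the input, the simulation, the output. -/

set_option autoImplicit false

namespace Vale.Agent.P315R45

open Vale.Agent.P315

/-- Copy `R r` entries of array `0`, from address `R 3` on, to array `j`. -/
def cp (r j : ℕ) : Prog :=
  .loop 2 (.reg r) (.put j (.reg 2) (.get 0 (.op .add (.reg 2) (.reg 3))))

theorem cp_exec {N : ℕ} (ρ : ℕ → ℕ) {r j : ℕ} (hj : j ≠ 0) (s : State) (h2 : s.reg 2 = 0)
    (hm : s.reg r + s.reg 3 < N) (ha : ∀ a, s.arr 0 a < N) :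
    ∃ t s', Exec N ρ (cp r j) s t s' ∧ t ≤ 8 * s.reg r + 2 ∧ s'.coins = s.coins ∧
      (∀ i, i ≠ 2 → s'.reg i = s.reg i) ∧ (∀ j', j' ≠ j → s'.arr j' = s.arr j') ∧
      ∀ a, s'.arr j a = if a < s.reg r then s.arr 0 (a + s.reg 3) else s.arr j a := by
  let A : ℕ → ℕ → ℕ := fun k a => if a < k then s.arr 0 (a + s.reg 3) else s.arr j a
  let σ : ℕ → State := fun k =>
    ⟨Function.update s.reg 2 (k - 1), Function.update s.arr j (A k), s.coins⟩
  have h0 : σ 0 = s := by
    have e1 : Function.update s.reg 2 (0 - 1) = s.reg := by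
      rw [Function.update_eq_self_iff]; exact h2.symm
    have e2 : Function.update s.arr j (A 0) = s.arr := by
      rw [Function.update_eq_self_iff]; funext a; simp [A]
    simp only [σ, e1, e2]
  have hE := Exec.loop (N := N) (ρ := ρ) 2 (.reg r)
    (.put j (.reg 2) (.get 0 (.op .add (.reg 2) (.reg 3)))) (s.reg r) 1 σ (fun _ => 6)
    (by rw [h0]; exact Eval.reg r (by omega)) (fun k hk => by
      have e2 : ((σ k).setReg 2 k).reg 2 = k := by simp [State.setReg]
      have e3 : ((σ k).setReg 2 k).reg 3 = s.reg 3 := by simp [State.setReg, σ]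
      have e0 : ((σ k).setReg 2 k).arr 0 = s.arr 0 := by
        simp [State.setReg, σ, Function.update_of_ne hj.symm]
      have v2 := Eval.reg (N := N) (s := (σ k).setReg 2 k) 2 (by omega)
      have v3 := Eval.reg (N := N) (s := (σ k).setReg 2 k) 3 (by omega)
      have v4 := Eval.op .add _ _ _ _ _ _ v2 v3 (by simp only [Op.eval]; omega)
      have v5 := Eval.get 0 _ _ _ v4 (by rw [e0]; exact ha _)
      have v6 := Exec.put (ρ := ρ) j _ _ _ _ _ _ _ v2 v5
      rw [e0, e2, e3] at v6
      have e : ((σ k).setReg 2 k).setArr j k (s.arr 0 (Op.add.eval k (s.reg 3))) = σ (k + 1) := by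
        simp only [State.setArr, State.setReg, σ, Function.update_idem, Function.update_self,
          Nat.add_sub_cancel, Op.eval]
        congr 2
        funext a
        by_cases ea : a = k
        · subst ea; simp [A]
        · rw [Function.update_of_ne ea]
          simp only [A, show (a < k + 1) ↔ a < k by omega]
      rw [e] at v6
      exact v6)
  rw [h0] at hE
  refine ⟨_, _, hE, by simp; omega, rfl, fun i hi => ?_, fun j' hj' => ?_, fun a => ?_⟩
  · simp [σ, Function.update_of_ne hi]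
  · simp [σ, Function.update_of_ne hj']
  · simp [σ, A]

/-- The input as it stands in the memory, seen as array `0`. -/
def raw (x y : List ℕ) : State where
  reg := fun _ => 0
  arr := fun j a => if j = 0 then (x.length :: y.length :: (x ++ y)).getD a 0 else 0
  coins := 0

/-- Read the lengths and copy the two strings to the arrays `1` and `2`. -/
def pro : Prog :=
  .seq (.set 0 (.get 0 (.lit 0))) (.seq (.set 1 (.get 0 (.lit 1))) (.seq (.set 3 (.lit 2))
    (.seq (cp 0 1) (.seq (.set 2 (.lit 0)) (.seq (.set 3 (.op .add (.reg 0) (.lit 2)))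
      (.seq (cp 1 2) (.seq (.set 2 (.lit 0)) (.set 3 (.lit 0)))))))))

theorem raw_lt {N : ℕ} {x y : List ℕ} (hN : x.length + y.length + 2 < N)
    (hs : ∀ a ∈ x ++ y, a < N) (a : ℕ) : (x.length :: y.length :: (x ++ y)).getD a 0 < N := by
  rcases Nat.lt_or_ge a (x.length :: y.length :: (x ++ y)).length with h | h
  · rw [List.getD_eq_getElem _ _ h]
    have := List.getElem_mem h
    simp only [List.mem_cons] at this
    rcases this with e | e | e
    · omega
    · omega
    · exact hs _ e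
  · rw [List.getD_eq_default _ _ h]; omega

theorem pro_exec {N : ℕ} (ρ : ℕ → ℕ) {x y : List ℕ} (hN : x.length + y.length + 2 < N)
    (hs : ∀ a ∈ x ++ y, a < N) : ∃ t s, Exec N ρ pro (raw x y) t s ∧
      t ≤ 8 * (x.length + y.length) + 30 ∧ s.reg = (State.init x y).reg ∧
      (∀ j, s.arr (j + 1) = (State.init x y).arr j) ∧ s.coins = 0 := by
  have hA : ∀ a, (raw x y).arr 0 a < N := raw_lt hN hs
  have a1 := Exec.set (ρ := ρ) 0 _ (raw x y) _ _
    (Eval.get 0 _ _ _ (Eval.lit (N := N) 0 (by omega)) (hA _))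
  have a2 := Exec.set (ρ := ρ) 1 _ ((raw x y).setReg 0 x.length) _ _
    (Eval.get 0 _ _ _ (Eval.lit (N := N) 1 (by omega)) (hA 1))
  have a3 := Exec.set (ρ := ρ) 3 _ (((raw x y).setReg 0 x.length).setReg 1 y.length) _ _
    (Eval.lit (N := N) 2 (by omega))
  obtain ⟨t4, s4, a4, ht4, c4, r4, b4, d4⟩ := cp_exec (N := N) ρ (r := 0) (j := 1) (by omega)
    ((((raw x y).setReg 0 x.length).setReg 1 y.length).setReg 3 2) (by simp [State.setReg, raw])
    (by simp [State.setReg]; omega) hA
  have r40 : s4.reg 0 = x.length := by rw [r4 0 (by omega)]; simp [State.setReg]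
  have r41 : s4.reg 1 = y.length := by rw [r4 1 (by omega)]; simp [State.setReg]
  have a5 := Exec.set (ρ := ρ) 2 _ s4 _ _ (Eval.lit (N := N) 0 (by omega))
  have e0 : (s4.setReg 2 0).reg 0 = x.length := by simp [State.setReg, r40]
  have a6 := Exec.set (ρ := ρ) 3 _ (s4.setReg 2 0) _ _ (Eval.op .add _ _ _ _ _ _
    (Eval.reg (N := N) 0 (by omega)) (Eval.lit 2 (by omega)) (by simp only [Op.eval]; omega))
  rw [e0] at a6
  have b40 : s4.arr 0 = (raw x y).arr 0 := b4 0 (by omega)
  obtain ⟨t7, s7, a7, ht7, c7, r7, b7, d7⟩ := cp_exec (N := N) ρ (r := 1) (j := 2) (by omega)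
    ((s4.setReg 2 0).setReg 3 (Op.add.eval x.length 2)) (by simp [State.setReg])
    (by simp [State.setReg, r41, Op.eval]; omega) (fun a => b40 ▸ hA a)
  have a8 := Exec.set (ρ := ρ) 2 _ s7 _ _ (Eval.lit (N := N) 0 (by omega))
  have a9 := Exec.set (ρ := ρ) 3 _ (s7.setReg 2 0) _ _ (Eval.lit (N := N) 0 (by omega))
  refine ⟨_, _, .seq _ _ _ _ _ _ _ a1 (.seq _ _ _ _ _ _ _ a2 (.seq _ _ _ _ _ _ _ a3
    (.seq _ _ _ _ _ _ _ a4 (.seq _ _ _ _ _ _ _ a5 (.seq _ _ _ _ _ _ _ a6 (.seq _ _ _ _ _ _ _ a7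
      (.seq _ _ _ _ _ _ _ a8 a9))))))), ?_, ?_, fun j => ?_, c7.trans c4⟩
  · simp [State.setReg, r41] at ht4 ht7
    omega
  · funext i
    by_cases h3 : i = 3
    · subst h3; simp [State.setReg, State.init]
    by_cases h2 : i = 2
    · subst h2; simp [State.setReg, State.init]
    have e1 := r7 i h2
    have e2 := r4 i h2
    simp only [State.setReg, Function.update_of_ne h3, Function.update_of_ne h2] at e1 e2 ⊢
    rw [e1, e2]
    simp only [State.init, raw, Function.update_apply]
    split_ifs <;> omega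
  · show s7.arr (j + 1) = _
    funext a
    by_cases h0 : j = 0
    · subst h0
      rw [b7 _ (by omega)]
      show s4.arr 1 a = x.getD a 0
      rw [d4]
      simp only [State.setReg, raw, List.getD_eq_getElem?_getD]
      by_cases ha : a < x.length
      · simp [ha, List.getElem?_append_left ha]
      · simp [ha, List.getElem?_eq_none (not_lt.1 ha)]
    by_cases h1 : j = 1
    · subst h1
      rw [d7]
      have e1 : s4.arr 2 = fun _ => 0 := (b4 2 (by omega)).trans (by simp [State.setReg, raw])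
      simp only [State.setReg, State.init, b40, e1, raw, List.getD_eq_getElem?_getD, Op.eval]
      by_cases ha : a < y.length
      · simp [ha, r41, ← Nat.add_assoc, List.getElem?_append_right]
      · simp [ha, r41, List.getElem?_eq_none (not_lt.1 ha)]
    · rw [b7 _ (by omega)]
      show s4.arr (j + 1) a = _
      rw [b4 _ (by omega)]
      simp [State.setReg, State.init, raw, h0, h1]

/-- The code that puts `2 ^ (w - c)` into register `3`. -/
def head (c : ℕ) : List Instr :=
  [.const 1 1, .op .sub 3 3 1, .const 1 (2 ^ c), .op .div 3 3 1, .const 1 1, .op .add 3 3 1]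

/-- The compiled program. -/
def full (c : ℕ) (Q : Prog) : List Instr :=
  head c ++ (compP c 0 pro 1 6 ++ (compP c 1 Q 1 (6 + lenP pro) ++ [.op .or 0 8 8]))

theorem head_sim {b c : ℕ} (hb : 1 ≤ b) (hc : 1 ≤ c) (ρ : ℕ → BitVec (b + c)) {x y : List ℕ}
    (hN : x.length + y.length + 2 < 2 ^ b) (hs : ∀ a ∈ x ++ y, a < 2 ^ b) :
    Sim b c 0 (raw x y) (execL ρ (head c) (start (b + c) x y)) := by
  have hlt : 2 ^ c < 2 ^ (b + c) := Nat.pow_lt_pow_right (by omega) (by omega)
  have hlt' : 2 ^ b < 2 ^ (b + c) := Nat.pow_lt_pow_right (by omega) (by omega)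
  have h1 : 1 < 2 ^ (b + c) := Nat.one_lt_two_pow (by omega)
  refine ⟨fun i => ?_, fun j a hj ha => ?_, rfl, ?_⟩
  · have n1 : 4 * i ≠ 1 := by omega
    have n3 : 4 * i ≠ 3 := by omega
    simp only [head, execL, Instr.exec, set_ne _ _ n1, set_ne _ _ n3]
    rfl
  · show (BitVec.ofNat _ ((x.length :: y.length :: (x ++ y)).getD
      (BitVec.ofNat _ ((j + 0) * 2 ^ b + a)).toNat 0)).toNat = _
    rw [BitVec.toNat_ofNat, BitVec.toNat_ofNat, Nat.mod_eq_of_lt (addr_lt hj ha),
      Nat.mod_eq_of_lt ((raw_lt hN hs _).trans hlt')]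
    by_cases h0 : j = 0
    · subst h0; simp [raw]
    · have : 1 * 2 ^ b ≤ (j + 0) * 2 ^ b := Nat.mul_le_mul_right _ (by omega)
      rw [List.getD_eq_default _ _ (by
        simp only [List.length_cons, List.length_append]; omega)]
      simp [raw, h0]
  · have n : (3 : ℕ) ≠ 1 := by omega
    have e : (2 ^ (b + c) - 1) / 2 ^ c = 2 ^ b - 1 := by
      have h2 : 0 < 2 ^ c := Nat.two_pow_pos c
      have h3 : 0 < 2 ^ b := Nat.two_pow_pos b
      obtain ⟨u, hu⟩ : ∃ u, 2 ^ b = u + 1 := ⟨2 ^ b - 1, by omega⟩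
      rw [pow_add, hu, Nat.add_sub_cancel]
      have h4 : (u + 1) * 2 ^ c = u * 2 ^ c + 2 ^ c := Nat.succ_mul _ _
      refine Nat.div_eq_of_lt_le ?_ ?_ <;> omega
    simp only [head, execL, Instr.exec, WOp.eval, set_same, set_ne _ _ n, start,
      BitVec.toNat_add, BitVec.toNat_udiv, BitVec.toNat_sub, BitVec.toNat_ofNat,
      Nat.mod_eq_of_lt hlt, Nat.mod_eq_of_lt h1]
    rw [show (0 : BitVec (b + c)).toNat = 0 from rfl,
      Nat.mod_eq_of_lt (show 2 ^ (b + c) - 1 + 0 < 2 ^ (b + c) by omega), Nat.add_zero (_ - 1), e,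
      Nat.sub_add_cancel Nat.one_le_two_pow, Nat.mod_eq_of_lt hlt']

/-- The compiled program halts in time `4 t + O(n)` with the output of the structured program. -/
theorem full_run {b c : ℕ} (hb : 1 ≤ b) (hc : 2 ≤ c) {Q : Prog} (hQ : mxP Q + 1 ≤ 2 ^ c)
    (ρ : ℕ → BitVec (b + c)) {x y : List ℕ} (hN : x.length + y.length + 2 < 2 ^ b)
    (hs : ∀ a ∈ x ++ y, a < 2 ^ b) {t : ℕ} {s : State}
    (h : Exec (2 ^ b) (fun i => (ρ i).toNat / 2 ^ c) Q (State.init x y) t s) :
    ∃ g, Run (full c Q) ρ (start (b + c) x y) g (4 * t + 32 * (x.length + y.length) + 127) ∧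
      (full c Q).length ≤ g.pc ∧ (g.reg 0).toNat = s.reg 2 := by
  have hA : At (full c Q) 0 (full c Q) := fun i I hi => by rwa [Nat.zero_add]
  have r1 := Run.lin (ρ := ρ) (L := head c) (g := start (b + c) x y) rfl hA.left
  have hA1 := hA.right (n := 6) rfl
  obtain ⟨t0, s0, e0, ht0, q1, q2, q3⟩ := pro_exec (fun i => (ρ i).toNat / 2 ^ c) hN hs
  have h4 : 2 ^ 2 ≤ 2 ^ c := Nat.pow_le_pow_right (by omega) hc
  obtain ⟨g2, r2, p2, S2, -⟩ := execP hb (by omega) e0 1 (execL ρ (head c) (start (b + c) x y))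
    le_rfl (show 3 + 0 ≤ 2 ^ c by omega) hA1.left (head_sim hb (by omega) ρ hN hs)
  have p2' : g2.pc = 6 + lenP pro := p2
  have S2' : Sim b c 1 (State.init x y) g2 :=
    ⟨fun i => by rw [S2.reg, q1], fun j a hj ha => by rw [← q2 j]; exact S2.arr (j + 1) a hj ha,
      S2.coins.trans q3, S2.base⟩
  have hA2 := hA1.right (n := g2.pc) (by rw [p2', compP_len])
  obtain ⟨g3, r3, p3, S3, -⟩ := execP hb (by omega) h 1 g2 le_rfl hQ
    (by rw [← p2'] at hA2; exact hA2.left) S2'
  have hA3 := hA2.right (n := g3.pc) (by rw [p3, compP_len])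
  refine ⟨_, (((r1.trans r2).trans r3).trans (Run.one hA3.head)).mono (by simp [head]; omega),
    ?_, ?_⟩
  · simp only [Instr.exec, set_pc, p3, p2', full, List.length_append, compP_len]
    simp [head]
    omega
  · simp only [Instr.exec, set_same, WOp.eval, BitVec.or_self]
    exact S3.reg 2

end Vale.Agent.P315R45
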